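import Vale.Agent.N371.Key
import Mathlib.Analysis.Matrix.LDL

/-!
# P371: potentials that are not Hermitian
-/

namespace Vale.Agent.N371

open MeasureTheory Filter Topology Set Matrix
open Vale.Agent.P371 Vale.Agent.P371.G Vale.Agent.P371E Vale.Agent.P371.H816
open scoped ComplexOrder Matrix.Norms.L2Operator MatrixOrder

variable {N m : ℕ}

theorem tri_diag {A B : Mat N N} (hA : A.BlockTriangular id) (hB : B.BlockTriangular id)
    (j : Fin N) : (A * B) j j = A j j * B j j := by
  rw [Matrix.mul_apply]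
  refine Finset.sum_eq_single j (fun k _ hk => ?_) fun h => absurd (Finset.mem_univ j) h
  rcases lt_or_gt_of_ne hk with h | h
  · rw [hA h, zero_mul]
  · rw [hB h, mul_zero]

/-- orthonormalisation by an upper triangular matrix -/
theorem exists_tri {G : Mat N N} (hG : G.PosDef) :
    ∃ R : Mat N N, Rᴴ * G * R = 1 ∧ R.BlockTriangular id := by
  have h1 := LDL.diag_eq_lowerInv_conj hG
  have hD : (LDL.diag hG).PosDef := by
    rw [h1]
    exact hG.mul_mul_conjTranspose_same (Matrix.vecMul_injective_of_invertible _)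
  have hd : ∀ i, 0 < LDL.diagEntries hG i := fun i => by
    have := hD.diag_pos (i := i)
    rwa [LDL.diag, diagonal_apply_eq] at this
  set s : Fin N → ℂ := fun i => (((√(LDL.diagEntries hG i).re)⁻¹ : ℝ) : ℂ) with hs
  refine ⟨(LDL.lowerInv hG)ᴴ * diagonal s, ?_, BlockTriangular.mul (fun i j hij => ?_)
    (blockTriangular_diagonal s)⟩
  · have e : ((LDL.lowerInv hG)ᴴ * diagonal s)ᴴ * G * ((LDL.lowerInv hG)ᴴ * diagonal s) =
        (diagonal s)ᴴ * (LDL.lowerInv hG * G * (LDL.lowerInv hG)ᴴ) * diagonal s := by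
      simp only [conjTranspose_mul, conjTranspose_conjTranspose, Matrix.mul_assoc]
    rw [e, ← h1, LDL.diag, diagonal_conjTranspose, diagonal_mul_diagonal, diagonal_mul_diagonal,
      ← diagonal_one]
    congr 1
    funext i
    obtain ⟨h2, h3⟩ := Complex.pos_iff.1 (hd i)
    have h4 : LDL.diagEntries hG i = (((LDL.diagEntries hG i).re : ℝ) : ℂ) :=
      Complex.ext rfl h3.symm
    have h5 := Real.sqrt_pos.2 h2
    rw [Pi.star_apply, hs, h4]
    simp only [Complex.star_def, Complex.conj_ofReal]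
    rw [← Complex.ofReal_mul, ← Complex.ofReal_mul, Complex.ofReal_eq_one]
    nth_rewrite 2 [← Real.mul_self_sqrt h2.le]
    field_simp
  · rw [conjTranspose_apply, LDL.lowerInv_triangular hG (show j < i from hij), star_zero]

theorem gram_posDef {f f' : Fin N → ℝ → Vec m} (hf : ∀ j, IsH1 (f j) (f' j))
    (hli : ∀ v : Fin N → ℂ, (∀ x, ∑ j, v j • f j x = 0) → v = 0) : (H816.gram volume f).PosDef := by
  refine posDef_of_qf (gram_isHermitian _ _) fun v hv => ?_
  set r : Mat N 1 := Matrix.of fun i (_ : Fin 1) => v i with hr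
  have h0 : qf (gram volume f) v = ((rᴴ * gram volume f * r) 0 0).re := by
    rw [qf, Matrix.mul_assoc, Matrix.mul_apply]
    rfl
  rw [h0, ← gram_lc _ fun j => (hf j).memLp, H816.gram, of_apply, integral_inner_self,
    Complex.ofReal_re]
  refine lt_of_le_of_ne (integral_nonneg fun x => sq_nonneg _) fun h => hv (hli v fun x => ?_)
  exact congrFun (isH1_zero_of_integral (isH1_lc r hf 0) h.symm) x

theorem re_form_le {V W : Mat m m} (h : (W - (1 / 2 : ℂ) • (V + Vᴴ)).PosSemidef) (u : Vec m) :
    (inner ℂ u (Matrix.toEuclideanLin V u) : ℂ).re ≤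
      (inner ℂ u (Matrix.toEuclideanLin W u) : ℂ).re := by
  have h1 := re_inner_nonneg_of_psd h u
  have h2 : (inner ℂ u (Matrix.toEuclideanLin Vᴴ u) : ℂ).re =
      (inner ℂ u (Matrix.toEuclideanLin V u) : ℂ).re := by
    rw [Matrix.toEuclideanLin_conjTranspose_eq_adjoint, LinearMap.adjoint_inner_right,
      ← inner_conj_symm, Complex.conj_re]
  simp only [map_sub, map_smul, map_add, LinearMap.sub_apply, LinearMap.smul_apply,
    LinearMap.add_apply, inner_sub_right, inner_smul_right, inner_add_right, Complex.sub_re] at h1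
  have h3 : (1 / 2 : ℂ) = ((1 / 2 : ℝ) : ℂ) := by norm_num
  rw [h3, Complex.re_ofReal_mul, Complex.add_re, h2] at h1
  linarith

/-- **The sharp bound for the eigenvalues of a potential that is not Hermitian.** -/
theorem complex_le {γ : ℝ} (hγ : 1 ≤ γ) (hγ' : γ < 3 / 2) {V W : ℝ → Mat m m}
    (hW : IsPotential (γ + 1 / 2) W)
    (hVW : ∀ x, (W x - (1 / 2 : ℂ) • (V x + (V x)ᴴ)).PosSemidef) {f f' : Fin N → ℝ → Vec m}
    (hf : ∀ j, IsH1 (f j) (f' j)) (hli : ∀ v : Fin N → ℂ, (∀ x, ∑ j, v j • f j x = 0) → v = 0)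
    (hi : ∀ i j, Integrable fun x => (inner ℂ (f i x) (Matrix.toEuclideanLin (V x) (f j x)) : ℂ))
    {T : Mat N N} (hT : T.BlockTriangular id) (he : -LL V f f' = gram volume f * T) :
    ∑ j, max (-(T j j).re) 0 ^ γ ≤ Cg γ * II γ W := by
  obtain ⟨R, hR, hRt⟩ := exists_tri (gram_posDef hf hli)
  have hg := isH1_lc R hf
  refine le_trans (Finset.sum_le_sum fun j _ => ?_)
    (diag_le hγ hγ' hW hg ((gram_lc R fun j => (hf j).memLp).trans hR))
  refine Real.rpow_le_rpow (le_max_right _ _) (max_le_max_right _ ?_) (by linarith)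
  have := invertibleOfLeftInverse R _ hR
  have hM : (Rᴴ * gram volume f).BlockTriangular id :=
    Matrix.inv_eq_left_inv hR ▸ blockTriangular_inv_of_blockTriangular hRt
  have h1 : LL V (lc R f) (lc R f') j j = -T j j := by
    have k := tri_diag hM hRt j
    rw [hR, one_apply_eq] at k
    rw [LL_lc hf hi, ← neg_neg (LL V f f'), he, Matrix.mul_neg, Matrix.neg_mul, neg_apply,
      ← Matrix.mul_assoc, tri_diag (hM.mul hT) hRt, tri_diag hM hT, mul_right_comm, ← k, one_mul]
  have i1 : Integrable fun x =>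
      (inner ℂ (lc R f j x) (Matrix.toEuclideanLin (V x) (lc R f j x)) : ℂ) := by
    simp only [inner_lc R f f (fun x => Matrix.toEuclideanLin (V x))]
    exact integrable_finsetSum _ fun i _ => integrable_finsetSum _ fun k _ =>
      ((hi i k).const_mul _).mul_const _
  have i2 := P371EF.integrable_formW (by linarith) hW (hg j) (hg j)
  have h2 : (pot V (lc R f) j j).re ≤ (pot W (lc R f) j j).re :=
    (integral_re i1).symm.trans_le
      ((integral_mono i1.re i2.re fun x => re_form_le (hVW x) _).trans_eq (integral_re i2))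
  rw [← Complex.neg_re, ← h1]
  simp only [LL, Matrix.sub_apply, Complex.sub_re]
  linarith

end Vale.Agent.N371
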