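import Vale.Agent.P371.LT

/-!
The nonlinear Schrödinger energy of orthonormal functions on the line.
-/

namespace Vale.Agent.N371

open MeasureTheory

/-- The values of `∑_j ∫ |u_j'|² - (1/p) ∫ (∑_j |u_j|²)^p` on the systems `u_1, ..., u_N` of
functions in `H¹(ℝ)` that are orthonormal in `L²(ℝ)`. -/
def energies (p : ℝ) (N : ℕ) : Set ℝ :=
  {E | ∃ u u' : Fin N → ℝ → ℂ, (∀ j, P371.LT.H1 (u j) (u' j)) ∧
    (∀ i j, ∫ x, star (u i x) * u j x = if i = j then 1 else 0) ∧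
    E = (∑ j, ∫ x, ‖u' j x‖ ^ 2) - 1 / p * ∫ x, (∑ j, ‖u j x‖ ^ 2) ^ p}

end Vale.Agent.N371
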