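import Vale.Agent.P371.H816.Forms
import Vale.Agent.P371EF.Form

/-!
# P371: the sharp inequality for arbitrary orthonormal systems, diagonal form
-/

namespace Vale.Agent.N371

open MeasureTheory Filter Topology Set Matrix
open Vale.Agent.P371 Vale.Agent.P371.G Vale.Agent.P371E Vale.Agent.P371.H816
open scoped ComplexOrder Matrix.Norms.L2Operator MatrixOrder

variable {N M m : ℕ}

/-- the matrix of the potential energy -/
noncomputable def pot (V : ℝ → Mat m m) (f : Fin N → ℝ → Vec m) : Mat N N :=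
  Matrix.of fun i j => ∫ x, inner ℂ (f i x) (Matrix.toEuclideanLin (V x) (f j x))

/-- the matrix of minus the form -/
noncomputable def LL (V : ℝ → Mat m m) (f f' : Fin N → ℝ → Vec m) : Mat N N :=
  pot V f - gram volume f'

theorem pot_lc {V : ℝ → Mat m m} {f : Fin N → ℝ → Vec m} (hi : ∀ i j, Integrable
    fun x => (inner ℂ (f i x) (Matrix.toEuclideanLin (V x) (f j x)) : ℂ)) (r : Mat N M) :
    pot V (lc r f) = rᴴ * pot V f * r := by
  ext k l
  have h1 : ∀ x, (inner ℂ (lc r f k x) (Matrix.toEuclideanLin (V x) (lc r f l x)) : ℂ) =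
      ∑ i, ∑ j, star (r i k) * inner ℂ (f i x) (Matrix.toEuclideanLin (V x) (f j x)) * r j l :=
    fun x => inner_lc r f f (fun x => Matrix.toEuclideanLin (V x)) k l x
  rw [pot, Matrix.of_apply]
  simp_rw [h1]
  exact integral_sesq r (fun i j x => inner ℂ (f i x) (Matrix.toEuclideanLin (V x) (f j x))) hi k l

theorem LL_lc {V : ℝ → Mat m m} {f f' : Fin N → ℝ → Vec m} (hf : ∀ j, IsH1 (f j) (f' j))
    (hi : ∀ i j, Integrable fun x => (inner ℂ (f i x) (Matrix.toEuclideanLin (V x) (f j x)) : ℂ))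
    (r : Mat N M) : LL V (lc r f) (lc r f') = rᴴ * LL V f f' * r := by
  rw [LL, LL, Matrix.mul_sub, Matrix.sub_mul, gram_lc r fun j => (hf j).memLp_deriv, pot_lc hi]

theorem LL_herm {W : ℝ → Mat m m} (hW : ∀ x, (W x).IsHermitian) (f f' : Fin N → ℝ → Vec m) :
    (LL W f f').IsHermitian := by
  refine IsHermitian.sub ?_ (gram_isHermitian volume f')
  ext i j
  rw [conjTranspose_apply, pot, of_apply, of_apply, Complex.star_def, ← integral_conj]
  simp only [inner_symm_herm (hW _)]

/-- **The sharp inequality for the compression of the form to an orthonormal system.** -/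
theorem rayleigh {γ : ℝ} (hγ : 1 / 2 < γ) (hγ' : γ < 3 / 2) {W : ℝ → Mat m m}
    (hW : IsPotential (γ + 1 / 2) W) {f f' : Fin N → ℝ → Vec m} (hf : ∀ j, IsH1 (f j) (f' j))
    (ho : gram volume f = 1) : trPos γ (LL W f f') ≤ Cg γ * II γ W := by
  have hp : (1 : ℝ) ≤ γ + 1 / 2 := by linarith
  obtain ⟨K, r, hr1, hr2, hr3⟩ :=
    pos_system (LL_herm (fun x => (hW.posSemidef x).isHermitian) f f')
  have hg := isH1_lc r hf
  rw [← hr3 γ (by linarith)]
  refine lim_principle hγ (Cg_pos hγ).le (fun m => PI.mainHyp hγ hγ' K m) hr2 (fun _ => m)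
    (fun n => (n : ℝ) + 1) (fun n => by positivity) (fun _ => W) (fun _ => hW)
    (fun _ => lc r f) (fun _ => lc r f') (fun _ => hg) ?_ ?_ fun _ => le_rfl
  · rw [gram_lc r fun j => (hf j).memLp, ho, Matrix.mul_one, hr1]
    exact tendsto_const_nhds
  · rw [← LL_lc hf fun i j => P371EF.integrable_formW hp hW (hf i) (hf j)]
    refine tendsto_pi_nhds.mpr fun i => tendsto_pi_nhds.mpr fun j => ?_
    have hn : Tendsto (fun n : ℕ => (n : ℝ) + 1) atTop atTop :=
      tendsto_atTop_add_const_right _ _ tendsto_natCast_atTop_atTop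
    exact (intervalIntegral_tendsto_integral (P371EF.integrable_formW hp hW (hg i) (hg j))
      (tendsto_neg_atTop_atBot.comp hn) hn).sub_const _

theorem strict_convex {p a d : ℝ} (hp : 1 < p) (ha : 0 < a) (hd : d ≠ a) :
    a ^ p + p * a ^ (p - 1) * (d - a) < max d 0 ^ p := by
  have h3 : a ^ (p - 1) = a ^ p / a := Real.rpow_sub_one ha.ne' p
  have h4 := Real.rpow_pos_of_pos ha p
  have e : a ^ p + p * a ^ (p - 1) * (d - a) = (1 + p * (d / a - 1)) * a ^ p := by
    rw [h3]
    field_simp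
  rw [e]
  rcases le_total d 0 with h | h
  · rw [max_eq_right h, Real.zero_rpow (by linarith)]
    have : d / a ≤ 0 := div_nonpos_of_nonpos_of_nonneg h ha.le
    exact mul_neg_of_neg_of_pos (by nlinarith) h4
  · have h1 := one_add_mul_self_lt_rpow_one_add (s := d / a - 1)
      (by linarith [div_nonneg h ha.le]) (fun k => hd (by
        rwa [sub_eq_zero, div_eq_one_iff_eq ha.ne'] at k)) hp
    rw [add_sub_cancel, Real.div_rpow h ha.le, lt_div_iff₀ h4] at h1
    rwa [max_eq_left h]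

/-- **The diagonal entries of a Hermitian matrix**, with the case of equality. -/
theorem peierls {X : Mat N N} (hX : X.IsHermitian) {p : ℝ} (hp : 1 ≤ p) :
    ∑ j, max (X j j).re 0 ^ p ≤ trPos p X ∧
    (1 < p → trPos p X ≤ ∑ j, max (X j j).re 0 ^ p → ∀ j, 0 < (X j j).re → ∀ i, i ≠ j →
      X i j = 0) := by
  set U : Mat N N := (hX.eigenvectorUnitary : Mat N N) with hU
  set d := hX.eigenvalues with hd
  have hU1 : Uᴴ * U = 1 := Unitary.coe_star_mul_self _
  have hU2 : U * Uᴴ = 1 := mul_eq_one_comm.1 hU1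
  have hXe : ∀ i j, X i j = ∑ k, U i k * (d k : ℂ) * star (U j k) := fun i j => by
    conv_lhs => rw [hX.spectral_theorem, Unitary.conjStarAlgAut_apply, Matrix.mul_apply]
    simp only [Matrix.mul_diagonal, Matrix.star_apply]
    rfl
  have hw : ∀ j k, U j k * star (U j k) = ((‖U j k‖ ^ 2 : ℝ) : ℂ) := fun j k => by
    rw [Complex.star_def, Complex.mul_conj, Complex.normSq_eq_norm_sq]
  have w1 : ∀ j, ∑ k, ‖U j k‖ ^ 2 = 1 := fun j => by
    have := congrFun (congrFun hU2 j) j
    simp only [Matrix.mul_apply, conjTranspose_apply, hw, one_apply_eq] at this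
    exact_mod_cast this
  have w2 : ∀ k, ∑ j, ‖U j k‖ ^ 2 = 1 := fun k => by
    have := congrFun (congrFun hU1 k) k
    simp only [Matrix.mul_apply, conjTranspose_apply, mul_comm (star _), hw, one_apply_eq] at this
    exact_mod_cast this
  have hdiag : ∀ j, (X j j).re = ∑ k, ‖U j k‖ ^ 2 * d k := fun j => by
    rw [hXe, Complex.re_sum]
    refine Finset.sum_congr rfl fun k _ => ?_
    rw [mul_right_comm, hw, ← Complex.ofReal_mul, Complex.ofReal_re]
  have htr : trPos p X = ∑ j, ∑ k, ‖U j k‖ ^ 2 * max (d k) 0 ^ p := by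
    rw [trPos_eq_sum hX, Finset.sum_comm]
    simp only [← Finset.sum_mul, w2, one_mul, hd]
  have lin : ∀ (j : Fin N) (a b : ℝ) (y : Fin N → ℝ), ∑ k, ‖U j k‖ ^ 2 * (a + b * (y k)) =
      a + b * ∑ k, ‖U j k‖ ^ 2 * y k := fun j a b y => by
    simp only [mul_add, Finset.sum_add_distrib, ← Finset.sum_mul, w1, one_mul, Finset.mul_sum,
      mul_left_comm b]
  have one : ∀ j, max (X j j).re 0 ^ p ≤ ∑ k, ‖U j k‖ ^ 2 * max (d k) 0 ^ p := fun j => by
    set a := max (X j j).re 0 with ha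
    have ha0 : 0 ≤ a := le_max_right _ _
    have h1 : a ≤ ∑ k, ‖U j k‖ ^ 2 * max (d k) 0 := max_le
      (hdiag j ▸ Finset.sum_le_sum fun k _ =>
        mul_le_mul_of_nonneg_left (le_max_left _ _) (sq_nonneg _))
      (Finset.sum_nonneg fun k _ => mul_nonneg (sq_nonneg _) (le_max_right _ _))
    have h2 : 0 ≤ p * a ^ (p - 1) := mul_nonneg (by linarith) (Real.rpow_nonneg ha0 _)
    have h3 : ∑ k, ‖U j k‖ ^ 2 * (a ^ p - p * a ^ (p - 1) * a + p * a ^ (p - 1) * max (d k) 0) ≤
        ∑ k, ‖U j k‖ ^ 2 * max (d k) 0 ^ p := Finset.sum_le_sum fun k _ =>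
      mul_le_mul_of_nonneg_left (by linarith [scalar_convex hp (le_max_right (d k) 0) ha0])
        (sq_nonneg _)
    rw [lin] at h3
    linarith [mul_le_mul_of_nonneg_left h1 h2]
  refine ⟨htr ▸ Finset.sum_le_sum fun j _ => one j, fun hp1 hle j hj i hij => ?_⟩
  rw [htr] at hle
  have h1 := (Finset.sum_eq_sum_iff_of_le fun j _ => one j).1
    (le_antisymm (Finset.sum_le_sum fun j _ => one j) hle) j (Finset.mem_univ j)
  rw [max_eq_left hj.le] at h1
  set a := (X j j).re with ha
  have h2 : ∀ k, U j k = 0 ∨ d k = a := fun k => by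
    by_contra hk
    rw [not_or] at hk
    have h3 : ∑ k, ‖U j k‖ ^ 2 * (a ^ p - p * a ^ (p - 1) * a + p * a ^ (p - 1) * d k) <
        ∑ k, ‖U j k‖ ^ 2 * max (d k) 0 ^ p := by
      refine Finset.sum_lt_sum (fun l _ => mul_le_mul_of_nonneg_left ?_ (sq_nonneg _))
        ⟨k, Finset.mem_univ k, mul_lt_mul_of_pos_left (by linarith [strict_convex hp1 hj hk.2])
          (pow_pos (norm_pos_iff.2 hk.1) 2)⟩
      have h4 : 0 ≤ p * a ^ (p - 1) := mul_nonneg (by linarith) (Real.rpow_nonneg hj.le _)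
      linarith [scalar_convex hp (le_max_right (d l) 0) hj.le,
        mul_le_mul_of_nonneg_left (le_max_left (d l) 0) h4]
    rw [lin, ← hdiag] at h3
    linarith
  have h5 := congrFun (congrFun hU2 i) j
  rw [Matrix.mul_apply, one_apply_ne hij] at h5
  rw [hXe, ← mul_zero (a : ℂ), ← h5, Finset.mul_sum]
  refine Finset.sum_congr rfl fun k _ => ?_
  rw [conjTranspose_apply]
  rcases h2 k with h | h
  · simp only [h, star_zero, mul_zero]
  · rw [h]
    ring

/-- **The sharp inequality for the diagonal entries of the form**, `1 ≤ γ < 3/2`. -/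
theorem diag_le {γ : ℝ} (hγ : 1 ≤ γ) (hγ' : γ < 3 / 2) {W : ℝ → Mat m m}
    (hW : IsPotential (γ + 1 / 2) W) {f f' : Fin N → ℝ → Vec m} (hf : ∀ j, IsH1 (f j) (f' j))
    (ho : gram volume f = 1) : ∑ j, max (LL W f f' j j).re 0 ^ γ ≤ Cg γ * II γ W :=
  (peierls (LL_herm (fun x => (hW.posSemidef x).isHermitian) f f') hγ).1.trans
    (rayleigh (by linarith) hγ' hW hf ho)

end Vale.Agent.N371
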