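import Vale.Agent.N371.Key
import Vale.Agent.P371EF.Main

/-!
# P371: the nonlinear Schrödinger energy of orthonormal functions, lower bound
-/

namespace Vale.Agent.N371

open MeasureTheory Filter Topology Set Matrix
open Vale.Agent.P371 Vale.Agent.P371.G Vale.Agent.P371E Vale.Agent.P371.H816
open scoped ComplexOrder Matrix.Norms.L2Operator MatrixOrder

variable {N m : ℕ}

/-! ### equality in the diagonal inequality forces eigenfunctions -/

/-- minus the form -/
noncomputable def Bf (W : ℝ → Mat m m) (g g' h h' : ℝ → Vec m) : ℂ :=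
  (∫ x, inner ℂ (g x) (Matrix.toEuclideanLin (W x) (h x))) - ∫ x, inner ℂ (g' x) (h' x)

theorem ip_comb {F F' : Fin N → ℝ → Vec m} (hF : ∀ j, IsH1 (F j) (F' j)) (c : Fin N → ℂ)
    {h : ℝ → Vec m} (hh : MemLp h 2 volume) : ∫ x, (inner ℂ (∑ i, c i • F i x) (h x) : ℂ) =
      ∑ i, starRingEnd ℂ (c i) * ∫ x, (inner ℂ (F i x) (h x) : ℂ) := by
  simp only [sum_inner, inner_smul_left]
  rw [P371EF.integral_comb fun i => integrable_inner_of_memLp (hF i).memLp hh]

theorem Bf_comb {p : ℝ} (hp : 1 ≤ p) {W : ℝ → Mat m m} (hW : IsPotential p W)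
    {F F' : Fin N → ℝ → Vec m} (hF : ∀ j, IsH1 (F j) (F' j)) (c : Fin N → ℂ)
    {h h' : ℝ → Vec m} (hh : IsH1 h h') :
    Bf W (fun x => ∑ i, c i • F i x) (fun x => ∑ i, c i • F' i x) h h' =
      ∑ i, starRingEnd ℂ (c i) * Bf W (F i) (F' i) h h' := by
  simp only [Bf, sum_inner, inner_smul_left, mul_sub, Finset.sum_sub_distrib]
  rw [P371EF.integral_comb fun i => P371EF.integrable_formW hp hW (hF i) hh,
    P371EF.integral_comb fun i => integrable_inner_of_memLp (hF i).memLp_deriv hh.memLp_deriv]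

theorem gram_one {f : Fin N → ℝ → Vec m} : H816.gram volume f = 1 ↔ Orth f :=
  ⟨fun h i j => (congrFun (congrFun h i) j).trans (Matrix.one_apply),
    fun h => Matrix.ext fun i j => (h i j).trans (Matrix.one_apply).symm⟩

theorem eigen_of_eq {γ : ℝ} (hγ : 1 < γ) (hγ' : γ < 3 / 2) {W : ℝ → Mat m m}
    (hW : IsPotential (γ + 1 / 2) W) {f f' : Fin N → ℝ → Vec m} (hf : ∀ j, IsH1 (f j) (f' j))
    (ho : Orth f) (he : Cg γ * II γ W ≤ ∑ j, max (LL W f f' j j).re 0 ^ γ) (j : Fin N)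
    (hj : 0 < (LL W f f' j j).re) : IsEigenfunction W (-(LL W f f' j j).re) (f j) (f' j) := by
  have hp : (1 : ℝ) ≤ γ + 1 / 2 := by linarith
  have hWh : ∀ x, (W x).IsHermitian := fun x => (hW.posSemidef x).isHermitian
  have off := (peierls (LL_herm hWh f f') hγ.le).2 hγ
    ((rayleigh (by linarith) hγ' hW hf (gram_one.2 ho)).trans he) j hj
  refine ⟨hf j, fun g g' hg => ?_⟩
  set a : Fin N → ℂ := fun k => ∫ x, inner ℂ (f k x) (g x) with ha
  have ha' : ∀ k, starRingEnd ℂ (a k) = ∫ x, inner ℂ (g x) (f k x) := fun k => by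
    rw [ha, ← integral_conj]
    simp only [inner_conj_symm]
  have hF : ∀ i, IsH1 ((Fin.cons g f : Fin (N + 1) → ℝ → Vec m) i)
      ((Fin.cons g' f' : Fin (N + 1) → ℝ → Vec m) i) := fun i => Fin.cases hg hf i
  let c : ℝ → Fin (N + 1) → ℂ := fun t => Fin.cons t fun k => -(t * a k)
  let G : ℝ → ℝ → Vec m := fun t x => ∑ i, c t i • (Fin.cons g f : Fin (N + 1) → ℝ → Vec m) i x
  let G' : ℝ → ℝ → Vec m := fun t x => ∑ i, c t i • (Fin.cons g' f' : Fin (N + 1) → ℝ → Vec m) i x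
  have hG : ∀ t, IsH1 (G t) (G' t) := fun t => P371EF.isH1_comb hF (c t)
  have h1 : ∀ t k, ∫ x, (inner ℂ (G t x) (f k x) : ℂ) = 0 := fun t k => by
    rw [ip_comb hF (c t) (hf k).memLp, Fin.sum_univ_succ]
    simp only [c, Fin.cons_zero, Fin.cons_succ, ho _ k, mul_ite, mul_one, mul_zero,
      Finset.sum_ite_eq', Finset.mem_univ, if_true, map_neg, map_mul, ha']
    ring
  have h2 : ∀ t : ℝ, Bf W (G t) (G' t) (f j) (f' j) =
      t * (Bf W g g' (f j) (f' j) - (∫ x, inner ℂ (g x) (f j x)) * LL W f f' j j) := fun t => by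
    rw [Bf_comb hp hW hF (c t) (hf j), Fin.sum_univ_succ,
      Finset.sum_eq_single j (fun k _ hk => ?_) fun h => absurd (Finset.mem_univ j) h]
    · simp only [c, Fin.cons_zero, Fin.cons_succ, map_neg, map_mul, ha', Complex.conj_ofReal]
      rw [show Bf W (f j) (f' j) (f j) (f' j) = LL W f f' j j from rfl]
      ring
    · exact mul_eq_zero_of_right _ (off k hk)
  have h3 : ∀ t x, G t x = (t : ℂ) • G 1 x := fun t x => by
    simp only [G, Finset.smul_sum, smul_smul]
    refine Finset.sum_congr rfl fun i _ => ?_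
    refine Fin.cases ?_ (fun k => ?_) i <;> simp [c]
  have key : ∃ t : ℝ, t ≠ 0 ∧ Bf W (G t) (G' t) (f j) (f' j) = 0 := by
    rcases (integral_nonneg fun x => sq_nonneg ‖G 1 x‖ :
      0 ≤ ∫ x, ‖G 1 x‖ ^ 2).eq_or_lt with h | h
    · have z := isH1_zero_of_integral (hG 1) h.symm
      have z' : G' 1 =ᵐ[volume] 0 := by
        filter_upwards [(hG 1).ae_hasDerivAt] with x hx
        rw [z] at hx
        exact hx.unique (hasDerivAt_const x 0)
      refine ⟨1, one_ne_zero, ?_⟩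
      have z2 : (fun x => (inner ℂ (G' 1 x) (f' j x) : ℂ)) =ᵐ[volume] fun _ => 0 := by
        filter_upwards [z'] with x hx
        rw [hx, Pi.zero_apply, inner_zero_left]
      rw [Bf, z, integral_congr_ae z2]
      simp
    · set t := (√(∫ x, ‖G 1 x‖ ^ 2))⁻¹ with ht
      have hs := Real.sqrt_pos.2 h
      have hH : ∀ i, IsH1 ((Fin.cons (G t) f : Fin (N + 1) → ℝ → Vec m) i)
          ((Fin.cons (G' t) f' : Fin (N + 1) → ℝ → Vec m) i) := fun i => Fin.cases (hG t) hf i
      have hO : Orth (Fin.cons (G t) f : Fin (N + 1) → ℝ → Vec m) := fun i k => by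
        refine Fin.cases ?_ (fun i => ?_) i <;> refine Fin.cases ?_ (fun k => ?_) k
        · simp only [Fin.cons_zero, if_true, integral_inner_self, h3 t, norm_smul, mul_pow,
            integral_const_mul, Complex.norm_real, Real.norm_eq_abs, sq_abs]
          rw [ht, inv_pow, Real.sq_sqrt h.le, inv_mul_cancel₀ h.ne', Complex.ofReal_one]
        · simp only [Fin.cons_zero, Fin.cons_succ, h1, (Fin.succ_ne_zero k).symm, if_false]
        · have := congrArg (starRingEnd ℂ) (h1 t i)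
          rw [← integral_conj, map_zero] at this
          simpa only [Fin.cons_zero, Fin.cons_succ, Fin.succ_ne_zero, if_false, inner_conj_symm]
            using this
        · simp only [Fin.cons_succ, ho i k, Fin.succ_inj]
      refine ⟨t, (inv_pos.2 hs).ne', (peierls (LL_herm hWh _ _) hγ.le).2 hγ
        ((rayleigh (by linarith) hγ' hW hH (gram_one.2 hO)).trans (he.trans ?_)) j.succ hj 0
        (Fin.succ_ne_zero j).symm⟩
      rw [Fin.sum_univ_succ]
      exact le_add_of_nonneg_left (Real.rpow_nonneg (le_max_right _ _) _)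
  obtain ⟨t, ht, h4⟩ := key
  rw [h2, mul_eq_zero, Complex.ofReal_eq_zero, or_iff_right ht, Bf] at h4
  have h5 : (((LL W f f' j j).re : ℝ) : ℂ) = LL W f f' j j :=
    (LL_herm hWh f f').coe_re_apply_self j
  rw [Complex.ofReal_neg, h5]
  linear_combination -h4

/-- **A system with equality has at most `m` functions.** -/
theorem card_le_of_eq {γ : ℝ} (hγ : 1 < γ) (hγ' : γ < 3 / 2) {W : ℝ → Mat 1 1}
    (hW : IsPotential (γ + 1 / 2) W) {f f' : Fin N → ℝ → Vec 1} (hf : ∀ j, IsH1 (f j) (f' j))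
    (ho : Orth f) (he : Cg γ * II γ W ≤ ∑ j, max (LL W f f' j j).re 0 ^ γ)
    (hj : ∀ j, 0 < (LL W f f' j j).re) : N ≤ 1 := by
  obtain ⟨Y, -, -, hY, -⟩ := P371ET.str_of (P371EL.lim_of P371EF.apx P371EO.ode P371EP.col)
    P371ET.pt P371ES.sol P371EG.eig γ (by linarith) hγ' 1 N W (fun j => -(LL W f f' j j).re) f f'
    hW ⟨fun j => neg_neg_of_pos (hj j), fun j => eigen_of_eq hγ hγ' hW hf ho he j (hj j), ho⟩ (by
      simp only [abs_neg, abs_of_pos (hj _)]
      have h := diag_le hγ.le hγ' hW hf (gram_one.2 ho)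
      simp only [max_eq_left (hj _).le] at h he
      exact le_antisymm h he)
  have h1 := Matrix.rank_mul_le_right Yᴴ Y
  rw [hY, Matrix.rank_one, Fintype.card_fin] at h1
  exact h1.trans (Matrix.rank_le_height Y)

/-! ### the mean-field potential -/

/-- the potential `ρ^(p-1)` -/
noncomputable def Wm (p : ℝ) (f : Fin N → ℝ → Vec 1) (x : ℝ) : Mat 1 1 :=
  ((rho f x ^ (p - 1) : ℝ) : ℂ) • (1 : Mat 1 1)

theorem integrable_mul_rho {p : ℝ} (hp : 1 ≤ p) {f f' : Fin N → ℝ → Vec 1}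
    (hf : ∀ j, IsH1 (f j) (f' j)) {h : ℝ → ℝ} (hh : Integrable h) :
    Integrable fun x => rho f x ^ (p - 1) * h x := by
  obtain ⟨R, -, hR⟩ := rho_bounded hf
  refine hh.bdd_mul (c := R ^ (p - 1)) (((continuous_rho fun j => (hf j).continuous).rpow_const
    fun x => Or.inr (by linarith)).aestronglyMeasurable) (Eventually.of_forall fun x => ?_)
  rw [Real.norm_of_nonneg (Real.rpow_nonneg (rho_nonneg f x) _)]
  exact Real.rpow_le_rpow (rho_nonneg f x) (hR x) (by linarith)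

theorem rho_pow {p : ℝ} (hp : 1 ≤ p) (f : Fin N → ℝ → Vec 1) (x : ℝ) :
    rho f x ^ (p - 1) * rho f x = rho f x ^ p := by
  rw [← Real.rpow_add_one' (rho_nonneg f x) (by linarith), sub_add_cancel]

theorem trPow_Wm {p s : ℝ} (hps : (p - 1) * s = p) (f : Fin N → ℝ → Vec 1) (x : ℝ) :
    trPow s (Wm p f x) = rho f x ^ p := by
  rw [Wm, trPow_smul_one, ← Real.rpow_mul (rho_nonneg f x), hps]

theorem isPotential_Wm {p s : ℝ} (hp : 1 ≤ p) (hps : (p - 1) * s = p) {f f' : Fin N → ℝ → Vec 1}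
    (hf : ∀ j, IsH1 (f j) (f' j)) : IsPotential s (Wm p f) where
  measurable i j := ((Complex.continuous_ofReal.comp ((continuous_rho fun j =>
    (hf j).continuous).rpow_const fun x => Or.inr (by linarith))).mul continuous_const).measurable
  posSemidef x := Matrix.PosSemidef.one.smul
    (Complex.zero_le_real.mpr (Real.rpow_nonneg (rho_nonneg f x) _))
  integrable := by
    simp only [trPow_Wm hps, ← rho_pow hp]
    exact integrable_mul_rho hp hf (integrable_rho hf)

theorem sum_LL {p : ℝ} (hp : 1 ≤ p) {f f' : Fin N → ℝ → Vec 1} (hf : ∀ j, IsH1 (f j) (f' j)) :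
    ∑ j, (LL (Wm p f) f f' j j).re = (∫ x, rho f x ^ p) - ∑ j, ∫ x, ‖f' j x‖ ^ 2 := by
  have h1 : ∀ j, (LL (Wm p f) f f' j j).re =
      (∫ x, rho f x ^ (p - 1) * ‖f j x‖ ^ 2) - ∫ x, ‖f' j x‖ ^ 2 := fun j => by
    simp only [LL, pot, H816.gram, Matrix.sub_apply, of_apply, Wm, map_smul, LinearMap.smul_apply,
      toEuclideanLin_one, inner_smul_right, inner_self_re', ← Complex.ofReal_mul,
      integral_complex_ofReal, Complex.sub_re, Complex.ofReal_re]
  simp only [h1, Finset.sum_sub_distrib]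
  rw [← integral_finsetSum _ fun j _ => integrable_mul_rho hp hf (integrable_norm_sq (hf j).memLp)]
  simp only [← Finset.mul_sum, ← rho_pow hp]
  rfl

/-- the binding energy of one function -/
noncomputable def cc (γ : ℝ) : ℝ := (1 - 1 / γ) * (Cg γ * (γ + 1 / 2) / γ) ^ (1 / (γ - 1))

theorem le_cc {γ : ℝ} (hγ : 1 < γ) (y : ℝ) :
    y ≤ cc γ + max y 0 ^ γ / (Cg γ * (γ + 1 / 2)) := by
  have hC := Cg_pos (γ := γ) (by linarith)
  have hA : 0 < Cg γ * (γ + 1 / 2) := by positivity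
  set μ := (Cg γ * (γ + 1 / 2) / γ) ^ (1 / (γ - 1)) with hμ
  have hμ0 : 0 < μ := by positivity
  have h1 : μ ^ (γ - 1) = Cg γ * (γ + 1 / 2) / γ := by
    rw [hμ, ← Real.rpow_mul (by positivity), one_div_mul_cancel (by linarith), Real.rpow_one]
  have h2 : μ ^ γ = Cg γ * (γ + 1 / 2) / γ * μ := by
    rw [← h1, ← Real.rpow_add_one hμ0.ne', sub_add_cancel]
  have h3 := scalar_convex hγ.le (le_max_right y 0) hμ0.le
  rw [h1, h2] at h3
  rw [cc, ← hμ, ← sub_le_iff_le_add', le_div_iff₀ hA]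
  refine le_trans ?_ h3
  have h4 := mul_le_mul_of_nonneg_left (le_max_left y 0) hA.le
  have e : Cg γ * (γ + 1 / 2) / γ * μ + γ * (Cg γ * (γ + 1 / 2) / γ) * (max y 0 - μ) =
      Cg γ * (γ + 1 / 2) * max y 0 - (1 - 1 / γ) * μ * (Cg γ * (γ + 1 / 2)) := by
    field_simp
    ring
  rw [e]
  linarith

theorem cc_pos {γ : ℝ} (hγ : 1 < γ) : 0 < cc γ := by
  have hC := Cg_pos (γ := γ) (by linarith)
  refine mul_pos (sub_pos.2 ((div_lt_one (by linarith)).2 hγ)) (by positivity)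

/-- **The lower bound, strict for more than one function.** -/
theorem energy_ge {γ p : ℝ} (hγ : 1 < γ) (hγ' : γ < 3 / 2) (hp : p = (2 * γ + 1) / (2 * γ - 1))
    {f f' : Fin N → ℝ → Vec 1} (hf : ∀ j, IsH1 (f j) (f' j)) (ho : Orth f) :
    -(N * cc γ) ≤ (∑ j, ∫ x, ‖f' j x‖ ^ 2) - 1 / p * (∫ x, rho f x ^ p) ∧
    (2 ≤ N → -(N * cc γ) < (∑ j, ∫ x, ‖f' j x‖ ^ 2) - 1 / p * ∫ x, rho f x ^ p) := by
  have hC := Cg_pos (γ := γ) (by linarith)
  have h0 : 0 < 2 * γ - 1 := by linarith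
  have hp1 : 1 ≤ p := by
    rw [hp, le_div_iff₀ h0]
    linarith
  have hps : (p - 1) * (γ + 1 / 2) = p := by
    rw [hp]
    field_simp
    ring
  have hW := isPotential_Wm hp1 hps hf
  have hI : II γ (Wm p f) = ∫ x, rho f x ^ p := by simp only [II, trPow_Wm hps]
  have h1 := diag_le hγ.le hγ' hW hf (gram_one.2 ho)
  have h2 := sum_LL hp1 hf
  have h3 : 1 / p * (∫ x, rho f x ^ p) = (∫ x, rho f x ^ p) -
      Cg γ * II γ (Wm p f) / (Cg γ * (γ + 1 / 2)) := by
    rw [hI, hp]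
    field_simp
    ring
  have h4 : ∑ j : Fin N, (cc γ + max (LL (Wm p f) f f' j j).re 0 ^ γ / (Cg γ * (γ + 1 / 2))) =
      N * cc γ + (∑ j, max (LL (Wm p f) f f' j j).re 0 ^ γ) / (Cg γ * (γ + 1 / 2)) := by
    rw [Finset.sum_add_distrib, Finset.sum_div]
    simp
  have h5 := Finset.sum_le_sum fun j (_ : j ∈ Finset.univ) => le_cc hγ (LL (Wm p f) f f' j j).re
  have hA : 0 < Cg γ * (γ + 1 / 2) := by positivity
  have h6 := div_le_div_of_nonneg_right h1 hA.le
  refine ⟨by linarith, fun hN => lt_of_not_ge fun h => ?_⟩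
  have h7 := (Finset.sum_eq_sum_iff_of_le fun j (_ : j ∈ Finset.univ) =>
    le_cc hγ (LL (Wm p f) f f' j j).re).1 (le_antisymm h5 (by linarith))
  have := card_le_of_eq hγ hγ' hW hf ho ((div_le_div_iff_of_pos_right hA).1 (by linarith))
    fun j => by
      rw [h7 j (Finset.mem_univ j)]
      exact add_pos_of_pos_of_nonneg (cc_pos hγ)
        (div_nonneg (Real.rpow_nonneg (le_max_right _ _) _) hA.le)
  omega

end Vale.Agent.N371
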