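import Vale.Agent.N371.Up
import Vale.Agent.N371.Cx
import Vale.Agent.N371.Defs

/-!
# P371: no binding, and potentials that are not Hermitian, in the working definitions
-/

namespace Vale.Agent.N371

open MeasureTheory Filter Topology Set
open Vale.Agent.P371 Vale.Agent.P371.G Vale.Agent.P371E Vale.Agent.P371.H816
open scoped ComplexOrder

variable {N : ℕ} {γ p : ℝ}

theorem lower (hγ : 1 < γ) (hγ' : γ < 3 / 2) (hp : p = (2 * γ + 1) / (2 * γ - 1)) {E : ℝ}
    (hE : E ∈ energies p N) : -(N * cc γ) ≤ E ∧ (2 ≤ N → -(N * cc γ) < E) := by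
  obtain ⟨u, u', h1, h2, rfl⟩ := hE
  have n : ∀ (v : ℝ → ℂ) (x : ℝ), ‖LT.toE (m := 1) (fun x _ => v x) x‖ ^ 2 = ‖v x‖ ^ 2 :=
    fun v x => by simp [LT.toE, EuclideanSpace.norm_sq_eq]
  have := energy_ge hγ hγ' hp (f := fun j => LT.toE fun x _ => u j x)
    (f' := fun j => LT.toE fun x _ => u' j x) (fun j => LT.isH1_iff.2 fun _ => h1 j) fun i j => by
      rw [LT.cint_ip, ← h2 i j]
      simp [LT.cint, LT.ip]
  simpa only [rho, n] using this

theorem sum_rpow_le (hp : 1 ≤ p) (s : Finset (Fin N)) {y : Fin N → ℝ} (hy : ∀ j, 0 ≤ y j) :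
    ∑ j ∈ s, y j ^ p ≤ (∑ j ∈ s, y j) ^ p := by
  induction s using Finset.induction_on with
  | empty => simpa using Real.rpow_nonneg le_rfl p
  | insert a s ha ih =>
    rw [Finset.sum_insert ha, Finset.sum_insert ha]
    exact (add_le_add_right ih _).trans
      (Real.add_rpow_le_rpow_add (hy a) (Finset.sum_nonneg fun j _ => hy j) hp)

/-- translates of a trial function -/
theorem upper (hp : 1 ≤ p) {e : ℝ} {u u' : ℝ → ℝ} (h : Trial p e u u') (c : Fin N → ℝ)
    (hc : ∀ i j, i ≠ j → ∀ x, u (x - c i) * u (x - c j) = 0) :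
    ∃ E ∈ energies p N, E ≤ N * e := by
  have hH : ∀ j, LT.H1 (fun x => (u (x - c j) : ℂ)) fun x => (u' (x - c j) : ℂ) := fun j =>
    ⟨(h.m0.comp_measurePreserving (measurePreserving_sub_right volume (c j))).ofReal,
      (h.m1.comp_measurePreserving (measurePreserving_sub_right volume (c j))).ofReal,
      fun a b => (intervalIntegral.integral_eq_sub_of_hasDerivAt
        (fun x _ => ((h.der (x - c j)).comp_sub_const x (c j)).ofReal_comp)
        ((Complex.continuous_ofReal.comp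
          (h.cont.comp (continuous_sub_right _))).intervalIntegrable a b)).symm⟩
  refine ⟨_, ⟨fun j x => (u (x - c j) : ℂ), fun j x => (u' (x - c j) : ℂ), hH, fun i j => ?_, rfl⟩,
    ?_⟩
  · simp only [Complex.star_def, Complex.conj_ofReal, ← Complex.ofReal_mul,
      integral_complex_ofReal]
    split_ifs with hij
    · rw [hij, integral_sub_right_eq_self (fun x => u x * u x), Complex.ofReal_eq_one, ← h.one]
      simp only [sq]
    · simp only [hc i j hij, integral_zero, Complex.ofReal_zero]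
  · have n : ∀ (v : ℝ → ℂ) (x : ℝ), ‖LT.toE (m := 1) (fun x _ => v x) x‖ ^ 2 = ‖v x‖ ^ 2 :=
      fun v x => by simp [LT.toE, EuclideanSpace.norm_sq_eq]
    have hf : ∀ j, IsH1 (LT.toE (m := 1) fun x _ => (u (x - c j) : ℂ))
        (LT.toE fun x _ => (u' (x - c j) : ℂ)) := fun j => LT.isH1_iff.2 fun _ => hH j
    have i1 := integrable_mul_rho hp hf (integrable_rho hf)
    simp only [rho_pow hp] at i1
    simp only [rho, n, Complex.norm_real, Real.norm_eq_abs, sq_abs] at i1 ⊢
    have i2 : ∀ j, Integrable fun x => (u (x - c j) ^ 2) ^ p := fun j => h.int.comp_sub_right _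
    have k := integral_mono (integrable_finsetSum Finset.univ fun j _ => i2 j) i1 fun x =>
      sum_rpow_le hp Finset.univ fun j => sq_nonneg (u (x - c j))
    rw [integral_finsetSum _ fun j _ => i2 j] at k
    simp only [integral_sub_right_eq_self (fun x => (u x ^ 2) ^ p),
      integral_sub_right_eq_self (fun x => u' x ^ 2), Finset.sum_const, Finset.card_univ,
      Fintype.card_fin, nsmul_eq_mul] at k ⊢
    have k1 := mul_le_mul_of_nonneg_left h.le (Nat.cast_nonneg (α := ℝ) N)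
    have k2 := mul_le_mul_of_nonneg_left k (by positivity : 0 ≤ 1 / p)
    linarith

/-- **No binding.** -/
theorem no_binding (hγ : 1 < γ) (hγ' : γ < 3 / 2) (hp : p = (2 * γ + 1) / (2 * γ - 1)) (N : ℕ) :
    IsGLB (energies p N) (-(N * cc γ)) ∧ (-(N * cc γ) ∈ energies p N ↔ N ≤ 1) := by
  have hp1 : 1 ≤ p := by
    rw [hp, le_div_iff₀ (by linarith)]
    linarith
  refine ⟨⟨fun E hE => (lower hγ hγ' hp hE).1, fun b hb => le_of_forall_pos_le_add fun ε hε => ?_⟩,
    fun h => not_lt.1 fun hN => lt_irrefl _ ((lower hγ hγ' hp h).2 hN), fun hN => ?_⟩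
  · obtain ⟨u, u', R, hR, h1, h2⟩ := exists_cpt hγ hp (ε := ε / (N + 1)) (by positivity)
    obtain ⟨E, hE, h3⟩ := upper (N := N) hp1 h1 (fun j => 2 * R * (j : ℕ)) fun i j hij x => by
      have h4 : (1 : ℝ) ≤ |((i : ℕ) : ℝ) - (j : ℕ)| := by
        have : ((i : ℕ) : ℤ) - (j : ℕ) ≠ 0 := fun k => hij (Fin.ext (by omega))
        exact_mod_cast Int.one_le_abs this
      by_contra k
      obtain ⟨k1, k2⟩ := mul_ne_zero_iff.1 k
      have a1 := abs_lt.1 (not_le.1 (mt (h2 _) k1))
      have a2 := abs_lt.1 (not_le.1 (mt (h2 _) k2))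
      rcases le_abs'.1 h4 with h | h <;> nlinarith [a1.1, a1.2, a2.1, a2.2]
    have h5 : (N : ℝ) * (ε / (N + 1)) ≤ ε := by
      rw [← mul_div_assoc, div_le_iff₀ (by positivity)]
      nlinarith
    linarith [hb hE]
  · obtain ⟨u, u', h1⟩ := exists_opt hγ hp
    obtain ⟨E, hE, h3⟩ := upper (N := N) hp1 h1 0 fun i j hij =>
      absurd (Fin.ext (by omega)) hij
    rwa [le_antisymm (h3.trans_eq (mul_neg _ _)) (lower hγ hγ' hp hE).1] at hE

theorem complex_lt {m : ℕ} (hγ : 1 ≤ γ) (hγ' : γ < 3 / 2) {V W : ℝ → Matrix (Fin m) (Fin m) ℂ}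
    (hW : LT.Potential (γ + 1 / 2) W)
    (hVW : ∀ x, (W x - (1 / 2 : ℂ) • (V x + (V x).conjTranspose)).PosSemidef)
    {f f' : Fin N → ℝ → Fin m → ℂ} {T : Matrix (Fin N) (Fin N) ℂ}
    (hf : ∀ j, LT.VH1 (f j) (f' j)) (hli : LinearIndependent ℂ f)
    (hi : ∀ i j, Integrable fun x => LT.ip (f i x) ((V x).mulVec (f j x)))
    (hT : ∀ i j, j < i → T i j = 0)
    (he : ∀ i j, (∫ x, LT.ip (f' i x) (f' j x)) - (∫ x, LT.ip (f i x) ((V x).mulVec (f j x))) =
      ∑ k, T k j * ∫ x, LT.ip (f i x) (f k x)) :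
    ∑ j, max (-(T j j).re) 0 ^ γ ≤ Cg γ * LT.intTr (γ + 1 / 2) W := by
  refine complex_le hγ hγ' (LT.isPotential_iff.2 hW) hVW (f := fun j => LT.toE (f j))
    (f' := fun j => LT.toE (f' j)) (fun j => LT.isH1_iff.2 (hf j)) (fun v hv => ?_)
    (fun i j => ?_) hT ?_
  · refine funext (Fintype.linearIndependent_iff.1 hli v (funext fun x => ?_))
    simpa [LT.toE] using congrArg WithLp.ofLp (hv x)
  · refine (hi i j).congr (Eventually.of_forall fun x => ?_)
    exact (LT.inner_toLp _ _).symm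
  · ext i j
    simp only [LL, pot, H816.gram, Matrix.neg_apply, Matrix.sub_apply, Matrix.of_apply,
      Matrix.mul_apply, LT.cint_ip, LT.cint_ip_mul, LT.cint, neg_sub, he, mul_comm (T _ j)]

end Vale.Agent.N371
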