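import Vale.Agent.N371.Low

/-!
# P371: the nonlinear Schrödinger energy of orthonormal functions, trial states
-/

namespace Vale.Agent.N371

open MeasureTheory Filter Topology Set
open Vale.Agent.P371 Vale.Agent.P371.G Vale.Agent.P371E

theorem memLp_bdd {a h : ℝ → ℝ} (ha : Continuous a) {D : ℝ} (hD : ∀ x, |a x| ≤ D)
    (hh : MemLp h 2 volume) : MemLp (fun x => a x * h x) 2 volume :=
  MemLp.of_le_mul (c := D) hh (ha.aestronglyMeasurable.mul hh.1) (Eventually.of_forall fun x => by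
    rw [norm_mul]
    exact mul_le_mul_of_nonneg_right (hD x) (norm_nonneg _))

theorem int_mul {a b : ℝ → ℝ} (ha : MemLp a 2 volume) (hb : MemLp b 2 volume) :
    Integrable fun x => a x * b x := ha.integrable_mul hb

/-- localisation of an eigenfunction -/
theorem ims {g g1 w χ χ' : ℝ → ℝ} {μ D B : ℝ} (hg1 : ∀ x, HasDerivAt g1 ((μ - w x) * g x) x)
    (hv : ∀ x, HasDerivAt (fun x => χ x * g x) (χ' x * g x + χ x * g1 x) x)
    (hχ : ∀ x, HasDerivAt χ (χ' x) x) (c1 : Continuous χ') (cw : Continuous w)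
    (b1 : ∀ x, |χ x| ≤ 1) (b2 : ∀ x, |χ' x| ≤ D) (b3 : ∀ x, |w x| ≤ B)
    (m1 : MemLp g 2 volume) (m2 : MemLp g1 2 volume) :
    (∫ x, (χ' x * g x + χ x * g1 x) ^ 2) - ∫ x, w x * (χ x * g x) ^ 2 ≤
      D ^ 2 * (∫ x, g x ^ 2) - μ * ∫ x, (χ x * g x) ^ 2 := by
  have c0 : Continuous χ := continuous_iff_continuousAt.2 fun x => (hχ x).continuousAt
  have a0 := memLp_bdd c0 b1 m1
  have a1 := memLp_bdd c0 b1 m2
  have a2 := memLp_bdd c1 b2 m1
  have i1 : Integrable fun x => (χ' x * g x + χ x * g1 x) ^ 2 := (a2.add a1).integrable_sq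
  have i2 : Integrable fun x => w x * (χ x * g x) ^ 2 := by
    simpa only [sq, mul_assoc] using int_mul (memLp_bdd cw b3 a0) a0
  have i3 : Integrable fun x => μ * (χ x * g x) ^ 2 := a0.integrable_sq.const_mul μ
  have i4 : Integrable fun x => (χ' x * g x) ^ 2 := a2.integrable_sq
  have i5 : Integrable fun x => (χ' x * g x + χ x * g1 x) ^ 2 - w x * (χ x * g x) ^ 2 := i1.sub i2
  have i6 : Integrable fun x => μ * (χ x * g x) ^ 2 - (χ' x * g x) ^ 2 := i3.sub i4
  have h := integral_eq_zero_of_hasDerivAt_of_integrable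
    (f := fun x => χ x * g x * (χ x * g1 x))
    (f' := fun x => (χ' x * g x + χ x * g1 x) ^ 2 - w x * (χ x * g x) ^ 2 +
      (μ * (χ x * g x) ^ 2 - (χ' x * g x) ^ 2))
    (fun x => ((hv x).mul ((hχ x).mul (hg1 x))).congr_deriv (by
      simp only [Pi.mul_apply]
      ring)) (i5.add i6) (int_mul a0 a1)
  rw [integral_add i5 i6, integral_sub i1 i2, integral_sub i3 i4, integral_const_mul] at h
  have k : ∫ x, (χ' x * g x) ^ 2 ≤ ∫ x, D ^ 2 * g x ^ 2 :=
    integral_mono i4 (m1.integrable_sq.const_mul _) fun x => by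
      simp only [mul_pow]
      exact mul_le_mul_of_nonneg_right (sq_le_sq' (abs_le.1 (b2 x)).1 (abs_le.1 (b2 x)).2)
        (sq_nonneg _)
  rw [integral_const_mul] at k
  linarith

/-- a normalised real trial function with energy at most `e` that vanishes for `|x| ≥ R` -/
structure Trial (p e : ℝ) (u u' : ℝ → ℝ) : Prop where
  der : ∀ x, HasDerivAt u (u' x) x
  cont : Continuous u'
  m0 : MemLp u 2 volume
  m1 : MemLp u' 2 volume
  int : Integrable fun x => (u x ^ 2) ^ p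
  one : ∫ x, u x ^ 2 = 1
  le : (∫ x, u' x ^ 2) - 1 / p * ∫ x, (u x ^ 2) ^ p ≤ e

theorem psi_le_one {q : ℝ} (hq : 0 < q) (x : ℝ) : psi q x ≤ 1 :=
  Real.rpow_le_one_of_one_le_of_nonpos (Real.one_le_cosh _) (neg_nonpos.2 (by positivity))

theorem memLp_scale {h : ℝ → ℝ} (hc : Continuous h) (hh : MemLp h 2 volume) {k : ℝ} (hk : 0 < k) :
    MemLp (fun x => h (k * (x - 0))) 2 volume := by
  refine (memLp_two_iff_integrable_sq (hc.comp (by fun_prop)).aestronglyMeasurable).2 ?_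
  simpa only [sub_zero, Function.comp_def] using hh.integrable_sq.comp_mul_left' hk.ne'

/-- the localised soliton -/
theorem exists_trial {γ p : ℝ} (hγ : 1 < γ) (hp : p = (2 * γ + 1) / (2 * γ - 1)) :
    ∃ A : ℝ, ∀ (χ χ' : ℝ → ℝ) (D : ℝ), (∀ x, HasDerivAt χ (χ' x) x) → Continuous χ' →
      (∀ x, |χ x| ≤ 1) → (∀ x, |χ' x| ≤ D) → (∀ x ∈ Icc (-1 : ℝ) 1, χ x = 1) →
      ∃ u u' : ℝ → ℝ, Trial p (D ^ 2 * A - cc γ) u u' ∧ ∀ x, χ x = 0 → u x = 0 := by
  have hC := Cg_pos (γ := γ) (by linarith)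
  have h0 : 0 < 2 * γ - 1 := by linarith
  have hν : 0 < γ - 1 / 2 := by linarith
  have hq : 0 < 1 / (γ - 1 / 2) := by positivity
  have hc : (γ + 1 / 2).HolderConjugate p := by
    rw [Real.holderConjugate_iff_eq_conjExponent (by linarith), hp, div_eq_div_iff h0.ne'
      (by linarith)]
    ring
  set μ := (Cg γ * (γ + 1 / 2) / γ) ^ (1 / (γ - 1)) with hμ
  have hμ0 : 0 < μ := by positivity
  have hk : 0 < √μ := Real.sqrt_pos.2 hμ0
  obtain ⟨s1, s2⟩ := P371ES.sol γ (√μ) 0 (by linarith) hk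
  have s3 : (∫ x, wS (γ - 1 / 2) (√μ) 0 x ^ (γ + 1 / 2)) / (γ + 1 / 2) = μ / γ := by
    have h1 : μ ^ (γ - 1) = Cg γ * (γ + 1 / 2) / γ := by
      rw [hμ, ← Real.rpow_mul (by positivity), one_div_mul_cancel (by linarith), Real.rpow_one]
    have h2 : √μ ^ (2 * γ) = Cg γ * (γ + 1 / 2) / γ * μ := by
      rw [← h1, ← Real.rpow_add_one hμ0.ne', sub_add_cancel, Real.rpow_mul hk.le, Real.rpow_two,
        Real.sq_sqrt hμ0.le]
    rw [h2] at s2
    rw [eq_div_of_mul_eq hC.ne' ((mul_comm _ _).trans s2)]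
    field_simp
  set q := 1 / (γ - 1 / 2) with hq'
  set w := wS (γ - 1 / 2) (√μ) 0 with hw
  let g : ℝ → ℝ := fun x => psi q (√μ * (x - 0))
  let g1 : ℝ → ℝ := fun x => √μ * -(tn q (√μ * (x - 0)) * psi q (√μ * (x - 0)))
  have hl : ∀ x, HasDerivAt (fun x : ℝ => √μ * (x - 0)) (√μ) x := fun x => by
    simpa using (hasDerivAt_id x).const_mul √μ
  have hg : ∀ x, HasDerivAt g (g1 x) x := fun x =>
    ((hasDerivAt_psi hq _).comp x (hl x)).congr_deriv (mul_comm _ _)
  have hg1 : ∀ x, HasDerivAt g1 ((μ - w x) * g x) x := fun x =>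
    (((hasDerivAt_psi' hq _).comp x (hl x)).const_mul √μ).congr_deriv (by
      simp only [hw, wS, ← hq', g]
      linear_combination (psi q (√μ * (x - 0))) * Real.mul_self_sqrt hμ0.le)
  have cg : Continuous g := continuous_iff_continuousAt.2 fun x => (hg x).continuousAt
  have cg1 : Continuous g1 := continuous_iff_continuousAt.2 fun x => (hg1 x).continuousAt
  have cw : Continuous w :=
    continuous_const.mul (continuous_const.mul ((sech2_continuous q).comp (by fun_prop)))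
  have w0 : ∀ x, 0 < w x := P371ES.wS_pos hν hk 0
  have w1 : ∀ x, |w x| ≤ √μ ^ 2 * ((1 + q) * 1) := fun x => by
    rw [abs_of_pos (w0 x)]
    exact mul_le_mul_of_nonneg_left (mul_le_mul_of_nonneg_left (sech2_le_one _ _) (by positivity))
      (sq_nonneg _)
  have m1 : MemLp g 2 volume := memLp_scale (continuous_psi q) (memLp_psi hq) hk
  have m2 : MemLp g1 2 volume := (memLp_scale ((continuous_tn q).mul (continuous_psi q)).neg
    (memLp_psi' hq) hk).const_mul _
  have hm0 : 0 < ∫ x in (-1 : ℝ)..1, g x ^ 2 := intervalIntegral.intervalIntegral_pos_of_pos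
    ((cg.pow 2).intervalIntegrable _ _) (fun x => pow_pos (psi_pos _ _) 2) (by norm_num)
  refine ⟨(∫ x, g x ^ 2) / ∫ x in (-1 : ℝ)..1, g x ^ 2, fun χ χ' D hχ c1 b1 b2 h1 => ?_⟩
  have c0 : Continuous χ := continuous_iff_continuousAt.2 fun x => (hχ x).continuousAt
  have hv : ∀ x, HasDerivAt (fun x => χ x * g x) (χ' x * g x + χ x * g1 x) x :=
    fun x => (hχ x).mul (hg x)
  have k := ims hg1 hv hχ c1 cw b1 b2 w1 m1 m2
  have a0 := memLp_bdd c0 b1 m1
  have a1 : MemLp (fun x => χ' x * g x + χ x * g1 x) 2 volume :=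
    (memLp_bdd c1 b2 m1).add (memLp_bdd c0 b1 m2)
  set M := ∫ x, (χ x * g x) ^ 2 with hM
  have hM0 : ∫ x in (-1 : ℝ)..1, g x ^ 2 ≤ M := by
    rw [intervalIntegral.integral_of_le (by norm_num),
      setIntegral_congr_fun (g := fun x => (χ x * g x) ^ 2) measurableSet_Ioc fun x hx => by
        simp only [h1 x (Ioc_subset_Icc_self hx), one_mul]]
    exact setIntegral_le_integral a0.integrable_sq (ae_of_all _ fun x => sq_nonneg _)
  have hM1 : 0 < M := hm0.trans_le hM0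
  have hs : (√M)⁻¹ ^ 2 = M⁻¹ := by rw [inv_pow, Real.sq_sqrt hM1.le]
  have a2 : MemLp (fun x => (√M)⁻¹ * (χ x * g x)) 2 volume := a0.const_mul _
  have cu : Continuous fun x => ((√M)⁻¹ * (χ x * g x)) ^ 2 := by fun_prop
  have i0 : Integrable fun x => (((√M)⁻¹ * (χ x * g x)) ^ 2) ^ p := by
    have e : ∀ y : ℝ, 0 ≤ y → y ^ p = y ^ (p - 1) * y := fun y hy => by
      rw [← Real.rpow_add_one' hy (by linarith [hc.symm.lt]), sub_add_cancel]
    simp only [e _ (sq_nonneg _)]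
    refine a2.integrable_sq.bdd_mul (c := M⁻¹ ^ (p - 1)) (cu.rpow_const
      fun x => Or.inr hc.symm.sub_one_pos.le).aestronglyMeasurable (Eventually.of_forall fun x => ?_)
    rw [Real.norm_of_nonneg (Real.rpow_nonneg (sq_nonneg _) _)]
    refine Real.rpow_le_rpow (sq_nonneg _) ?_ hc.symm.sub_one_pos.le
    rw [mul_pow, hs]
    refine mul_le_of_le_one_right (by positivity) ((sq_le_one_iff_abs_le_one _).2 ?_)
    rw [abs_mul, abs_of_pos (psi_pos _ _)]
    exact mul_le_one₀ (b1 x) (psi_pos _ _).le (psi_le_one hq _)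
  refine ⟨fun x => (√M)⁻¹ * (χ x * g x), fun x => (√M)⁻¹ * (χ' x * g x + χ x * g1 x),
    ⟨fun x => (hv x).const_mul _, by fun_prop, a2, a1.const_mul _, i0, ?_, ?_⟩,
    fun x hx => by simp only [hx, zero_mul, mul_zero]⟩
  · simp only [mul_pow (√M)⁻¹, integral_const_mul, hs]
    exact inv_mul_cancel₀ hM1.ne'
  · have i1 : Integrable fun x => w x * ((√M)⁻¹ * (χ x * g x)) ^ 2 := by
      simpa only [sq, mul_assoc] using int_mul (memLp_bdd cw w1 a2) a2
    have i2 : Integrable fun x => w x ^ (γ + 1 / 2) / (γ + 1 / 2) := s1.div_const _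
    have i3 : Integrable fun x => (((√M)⁻¹ * (χ x * g x)) ^ 2) ^ p / p := i0.div_const _
    have y := integral_mono i1 (i2.add i3) fun x =>
      Real.young_inequality_of_nonneg (w0 x).le (sq_nonneg _) hc
    rw [integral_add' i2 i3, integral_div, integral_div, s3] at y
    have e1 : ∫ x, w x * ((√M)⁻¹ * (χ x * g x)) ^ 2 = M⁻¹ * ∫ x, w x * (χ x * g x) ^ 2 := by
      simp only [mul_pow (√M)⁻¹, hs, mul_left_comm (w _) M⁻¹, integral_const_mul]
    have e2 : ∫ x, ((√M)⁻¹ * (χ' x * g x + χ x * g1 x)) ^ 2 =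
        M⁻¹ * ∫ x, (χ' x * g x + χ x * g1 x) ^ 2 := by
      simp only [mul_pow (√M)⁻¹, hs, integral_const_mul]
    have k2 := mul_le_mul_of_nonneg_left k (inv_pos.2 hM1).le
    have e3 : M⁻¹ * (D ^ 2 * (∫ x, g x ^ 2) - μ * M) = D ^ 2 * ((∫ x, g x ^ 2) / M) - μ := by
      field_simp
    have k3 := mul_le_mul_of_nonneg_left (div_le_div_of_nonneg_left
      (integral_nonneg fun x => sq_nonneg (g x) : 0 ≤ ∫ x, g x ^ 2) hm0 hM0) (sq_nonneg D)
    rw [e2, cc, ← hμ, one_div_mul_eq_div, sub_mul, one_div_mul_eq_div]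
    rw [e1] at y
    rw [e3, mul_sub] at k2
    linarith

theorem exists_opt {γ p : ℝ} (hγ : 1 < γ) (hp : p = (2 * γ + 1) / (2 * γ - 1)) :
    ∃ u u' : ℝ → ℝ, Trial p (-cc γ) u u' := by
  obtain ⟨A, h⟩ := exists_trial hγ hp
  obtain ⟨u, u', h1, -⟩ := h (fun _ => 1) (fun _ => 0) 0 (fun x => hasDerivAt_const x 1)
    continuous_const (by simp) (by simp) fun _ _ => rfl
  exact ⟨u, u', by simpa using h1⟩

theorem exists_cpt {γ p : ℝ} (hγ : 1 < γ) (hp : p = (2 * γ + 1) / (2 * γ - 1)) {ε : ℝ}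
    (hε : 0 < ε) : ∃ (u u' : ℝ → ℝ) (R : ℝ), 0 < R ∧ Trial p (ε - cc γ) u u' ∧
      ∀ x, R ≤ |x| → u x = 0 := by
  obtain ⟨A, h⟩ := exists_trial hγ hp
  let φ : ContDiffBump (0 : ℝ) := ⟨1, 2, one_pos, one_lt_two⟩
  have hφ : ContDiff ℝ 1 φ := φ.contDiff
  obtain ⟨C, hC⟩ := φ.hasCompactSupport.deriv.exists_bound_of_continuous
    (hφ.continuous_deriv le_rfl)
  have lim : Tendsto (fun R : ℝ => (C / R) ^ 2 * A) atTop (𝓝 (0 ^ 2 * A)) :=
    ((tendsto_const_nhds.div_atTop tendsto_id).pow 2).mul_const A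
  obtain ⟨R, hR, hR1⟩ := ((lim.eventually (ge_mem_nhds (a := ε) (by simpa using hε))).and
    (eventually_ge_atTop 1)).exists
  have hR0 : 0 < R := by linarith
  obtain ⟨u, u', h1, h2⟩ := h (fun x => φ (x / R)) (fun x => deriv φ (x / R) * (1 / R)) (C / R)
    (fun x => (hφ.differentiable one_ne_zero _).hasDerivAt.comp x ((hasDerivAt_id x).div_const R))
    (((hφ.continuous_deriv le_rfl).comp (by fun_prop)).mul continuous_const)
    (fun x => abs_le.2 ⟨by linarith [φ.nonneg (x := x / R)], φ.le_one⟩)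
    (fun x => by
      rw [abs_mul, abs_of_pos (one_div_pos.2 hR0), mul_one_div]
      exact div_le_div_of_nonneg_right (hC _) hR0.le)
    fun x hx => φ.one_of_mem_closedBall (by
      rw [mem_closedBall_zero_iff, Real.norm_eq_abs, abs_div, abs_of_pos hR0, div_le_iff₀ hR0]
      exact (abs_le.2 hx).trans (hR1.trans (one_mul R).ge))
  refine ⟨u, u', 2 * R, by positivity, ⟨h1.1, h1.2, h1.3, h1.4, h1.5, h1.6, h1.7.trans (by linarith)⟩,
    fun x hx => h2 x (φ.zero_of_le_dist ?_)⟩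
  rw [dist_zero_right, Real.norm_eq_abs, abs_div, abs_of_pos hR0, le_div_iff₀ hR0]
  exact hx

end Vale.Agent.N371
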